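import Vale.Agent.Lib.Helper9.P226.Tail

/-!
The first moment of a set under the standard Gaussian measure of a finite dimensional inner
product space is bounded through a one dimensional truncation argument.
-/

namespace Vale.Agent.Lib.Helper9.P226

open MeasureTheory ProbabilityTheory Real Set
open scoped RealInnerProductSpace

section
variable {E : Type*} [NormedAddCommGroup E] [InnerProductSpace ℝ E] [FiniteDimensional ℝ E]
  [MeasurableSpace E] [BorelSpace E]

/-- The law of the coordinate along a unit vector is the standard normal law. -/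
theorem map_inner_stdGaussian (u : E) (hu : ‖u‖ = 1) :
    (stdGaussian E).map (fun x => ⟪u, x⟫) = gaussianReal 0 1 := by
  have h := IsGaussian.map_eq_gaussianReal (μ := stdGaussian E) (innerSL ℝ u)
  rw [integral_strongDual_stdGaussian, variance_dual_stdGaussian, innerSL_apply_norm, hu] at h
  have e : ((1 : ℝ) ^ 2).toNNReal = 1 := by simp
  rw [e] at h
  exact h

theorem integrable_inner (u : E) : Integrable (fun x : E => ⟪u, x⟫) (stdGaussian E) := by
  have h := IsGaussian.integrable_dual (stdGaussian E) (innerSL ℝ u)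
  simpa [innerSL_apply_apply] using h

theorem integrable_max_inner (u : E) (τ : ℝ) :
    Integrable (fun x : E => max (⟪u, x⟫ - τ) 0) (stdGaussian E) :=
  ((integrable_inner u).sub (integrable_const τ)).sup (integrable_const 0)

theorem integral_max_inner (u : E) (hu : ‖u‖ = 1) (τ : ℝ) :
    ∫ x, max (⟪u, x⟫ - τ) 0 ∂(stdGaussian E) = phi τ - τ * Q τ := by
  rw [← integral_max_sub τ, ← map_inner_stdGaussian u hu]
  rw [integral_map (by fun_prop) (by fun_prop)]

/-- The mean of a unit coordinate over a set, bounded by truncation at an arbitrary level. -/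
theorem setIntegral_inner_le (u : E) (hu : ‖u‖ = 1) (A : Set E) (τ : ℝ) :
    ∫ x in A, ⟪u, x⟫ ∂(stdGaussian E) ≤ phi τ + τ * ((stdGaussian E).real A - Q τ) := by
  have hL : IntegrableOn (fun x : E => ⟪u, x⟫) A (stdGaussian E) :=
    (integrable_inner u).integrableOn
  have hM := integrable_max_inner u τ
  have e2 : ∫ x in A, ⟪u, x⟫ ∂(stdGaussian E)
      ≤ ∫ x in A, (τ + max (⟪u, x⟫ - τ) 0) ∂(stdGaussian E) := by
    refine setIntegral_mono hL ((integrable_const τ).add hM).integrableOn ?_
    intro x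
    have := le_max_left (⟪u, x⟫ - τ) 0
    show ⟪u, x⟫ ≤ τ + max (⟪u, x⟫ - τ) 0
    linarith
  have e3 : ∫ x in A, (τ + max (⟪u, x⟫ - τ) 0) ∂(stdGaussian E)
      = τ * (stdGaussian E).real A + ∫ x in A, max (⟪u, x⟫ - τ) 0 ∂(stdGaussian E) := by
    rw [integral_add (integrable_const τ).integrableOn hM.integrableOn]
    simp
    ring
  have e4 : ∫ x in A, max (⟪u, x⟫ - τ) 0 ∂(stdGaussian E) ≤ phi τ - τ * Q τ := by
    rw [← integral_max_inner u hu τ]
    exact setIntegral_le_integral hM (Filter.Eventually.of_forall fun x => le_max_right _ _)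
  linarith

/-- The norm of the first moment of a set is bounded by the truncation bound at every level. -/
theorem norm_setIntegral_le (A : Set E) (τ : ℝ) :
    ‖∫ x in A, x ∂(stdGaussian E)‖ ≤ phi τ + τ * ((stdGaussian E).real A - Q τ) := by
  by_cases h0 : ∫ x in A, x ∂(stdGaussian E) = 0
  · rw [h0, norm_zero]
    have hp0 : 0 ≤ (stdGaussian E).real A := measureReal_nonneg
    have hp1 : (stdGaussian E).real A ≤ 1 := measureReal_le_one
    rcases le_total 0 τ with hτ | hτ
    · have h1 := mul_Q_le_phi τ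
      have h2 := mul_nonneg hτ hp0
      linarith
    · have h1 := neg_le_phi_sub τ
      have h2 := mul_nonneg (neg_nonneg.2 hτ) (sub_nonneg.2 hp1)
      linarith
  · have hzpos : 0 < ‖∫ x in A, x ∂(stdGaussian E)‖ := norm_pos_iff.2 h0
    have hunorm : ‖(‖∫ x in A, x ∂(stdGaussian E)‖)⁻¹ • ∫ x in A, x ∂(stdGaussian E)‖ = 1 := by
      rw [norm_smul, norm_inv, norm_norm, inv_mul_cancel₀ hzpos.ne']
    have hid : IntegrableOn (fun x : E => x) A (stdGaussian E) :=
      (IsGaussian.integrable_fun_id (μ := stdGaussian E)).integrableOn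
    have e1 : ‖∫ x in A, x ∂(stdGaussian E)‖
        = ∫ x in A, ⟪(‖∫ x in A, x ∂(stdGaussian E)‖)⁻¹ • ∫ x in A, x ∂(stdGaussian E), x⟫
          ∂(stdGaussian E) := by
      rw [integral_inner hid, real_inner_smul_left, real_inner_self_eq_norm_sq]
      field_simp
    have h := setIntegral_inner_le _ hunorm A τ
    rw [← e1] at h
    exact h

/-- If the squared density is dominated by a multiple of the tail beyond `T`, every set whose
measure is at most the tail at `T` has squared first moment at most that multiple of its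
measure. -/
theorem norm_sq_setIntegral_le_of_tail {c T : ℝ}
    (hT : ∀ t, T ≤ t → phi t ^ 2 ≤ c * Q t) (A : Set E)
    (hAp : (stdGaussian E).real A ≤ Q T) :
    ‖∫ x in A, x ∂(stdGaussian E)‖ ^ 2 ≤ c * (stdGaussian E).real A := by
  rcases (measureReal_nonneg : 0 ≤ (stdGaussian E).real A).eq_or_lt with h0 | hpos
  · have hA0 : (stdGaussian E) A = 0 := (measureReal_eq_zero_iff).1 h0.symm
    have hz : ∫ x in A, x ∂(stdGaussian E) = 0 := setIntegral_measure_zero _ hA0
    rw [hz, ← h0]
    simp
  · obtain ⟨t, hTt, hQt⟩ := exists_Q_eq hpos hAp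
    have h1 := norm_setIntegral_le A t
    rw [hQt, sub_self, mul_zero, add_zero] at h1
    have h3 := hT t hTt
    calc ‖∫ x in A, x ∂(stdGaussian E)‖ ^ 2 ≤ phi t ^ 2 :=
          pow_le_pow_left₀ (norm_nonneg _) h1 2
      _ ≤ c * Q t := h3
      _ = c * (stdGaussian E).real A := by rw [hQt]

/-- The same conclusion for every set when the domination holds on the whole nonnegative half
line. -/
theorem norm_sq_setIntegral_le_of_nonneg {c : ℝ} (hc : 0 ≤ c)
    (hT : ∀ t, 0 ≤ t → phi t ^ 2 ≤ c * Q t) (A : Set E) :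
    ‖∫ x in A, x ∂(stdGaussian E)‖ ^ 2 ≤ c * (stdGaussian E).real A := by
  rcases le_total ((stdGaussian E).real A) (1 / 2) with h | h
  · exact norm_sq_setIntegral_le_of_tail hT A (by rw [Q_zero]; exact h)
  · have h1 := norm_setIntegral_le A 0
    rw [zero_mul, add_zero] at h1
    have h3 := hT 0 le_rfl
    rw [Q_zero] at h3
    calc ‖∫ x in A, x ∂(stdGaussian E)‖ ^ 2 ≤ phi 0 ^ 2 :=
          pow_le_pow_left₀ (norm_nonneg _) h1 2
      _ ≤ c * (1 / 2) := h3
      _ ≤ c * (stdGaussian E).real A := mul_le_mul_of_nonneg_left h hc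

/-- Summing a bound proportional to the measure over pairwise disjoint measurable sets. -/
theorem sum_norm_sq_le {k : ℕ} {c : ℝ} (hc : 0 ≤ c) (A : Fin k → Set E)
    (hA : ∀ i, MeasurableSet (A i)) (hdisj : Pairwise (Function.onFun Disjoint A))
    (h : ∀ i, ‖∫ x in A i, x ∂(stdGaussian E)‖ ^ 2 ≤ c * (stdGaussian E).real (A i)) :
    ∑ i, ‖∫ x in A i, x ∂(stdGaussian E)‖ ^ 2 ≤ c := by
  have h1 : ∑ i, ‖∫ x in A i, x ∂(stdGaussian E)‖ ^ 2
      ≤ ∑ i, c * (stdGaussian E).real (A i) := Finset.sum_le_sum fun i _ => h i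
  have h2 : ∑ i, (stdGaussian E).real (A i) = (stdGaussian E).real (⋃ i, A i) :=
    (measureReal_iUnion_fintype hdisj hA).symm
  have h3 : (stdGaussian E).real (⋃ i, A i) ≤ 1 := measureReal_le_one
  rw [← Finset.mul_sum, h2] at h1
  have h4 := mul_le_mul_of_nonneg_left h3 hc
  linarith

end

end Vale.Agent.Lib.Helper9.P226
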