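import Vale.Agent.Lib.Helper9.P226.Tail

/-!
Numerical comparison of the squared standard normal density with multiples of the upper tail.
The comparison near the origin goes through polynomial bounds whose positivity is certified
by explicit expansions in the Bernstein basis; far from the origin the Mills bound is used.
-/

namespace Vale.Agent.Lib.Helper9.P226

open MeasureTheory ProbabilityTheory Real Set

theorem exp_neg_le_four {u : ℝ} (hu : 0 ≤ u) :
    Real.exp (-u) ≤ 1 - u + u ^ 2 / 2 - u ^ 3 / 6 + u ^ 4 / 24 := by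
  have hS : 1 + u + u ^ 2 / 2 + u ^ 3 / 6 + u ^ 4 / 24 + u ^ 5 / 120 ≤ Real.exp u := by
    have h := Real.sum_le_exp_of_nonneg hu 6
    have e : ∑ i ∈ Finset.range 6, u ^ i / (i.factorial : ℝ)
        = 1 + u + u ^ 2 / 2 + u ^ 3 / 6 + u ^ 4 / 24 + u ^ 5 / 120 := by
      simp only [Finset.sum_range_succ, Finset.sum_range_zero, Nat.factorial]
      norm_num
    rw [e] at h
    exact h
  have hpos : 0 < 1 + u + u ^ 2 / 2 + u ^ 3 / 6 + u ^ 4 / 24 + u ^ 5 / 120 := by positivity
  have h2 : 1 ≤ (1 - u + u ^ 2 / 2 - u ^ 3 / 6 + u ^ 4 / 24)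
      * (1 + u + u ^ 2 / 2 + u ^ 3 / 6 + u ^ 4 / 24 + u ^ 5 / 120) := by
    have e : (1 - u + u ^ 2 / 2 - u ^ 3 / 6 + u ^ 4 / 24)
        * (1 + u + u ^ 2 / 2 + u ^ 3 / 6 + u ^ 4 / 24 + u ^ 5 / 120)
        = 1 + (u ^ 5 / 120 + u ^ 6 / 180 + u ^ 7 / 240 + u ^ 8 / 2880 + u ^ 9 / 2880) := by ring
    rw [e]
    have : 0 ≤ u ^ 5 / 120 + u ^ 6 / 180 + u ^ 7 / 240 + u ^ 8 / 2880 + u ^ 9 / 2880 := by
      positivity
    linarith
  calc Real.exp (-u) = (Real.exp u)⁻¹ := Real.exp_neg u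
    _ ≤ (1 + u + u ^ 2 / 2 + u ^ 3 / 6 + u ^ 4 / 24 + u ^ 5 / 120)⁻¹ := inv_anti₀ hpos hS
    _ ≤ 1 - u + u ^ 2 / 2 - u ^ 3 / 6 + u ^ 4 / 24 := by
        rw [inv_le_iff_one_le_mul₀ hpos]
        exact h2

theorem exp_neg_le_eight {u : ℝ} (hu : 0 ≤ u) :
    Real.exp (-u) ≤ 1 - u + u ^ 2 / 2 - u ^ 3 / 6 + u ^ 4 / 24 - u ^ 5 / 120 + u ^ 6 / 720
      - u ^ 7 / 5040 + u ^ 8 / 40320 := by
  have hS : 1 + u + u ^ 2 / 2 + u ^ 3 / 6 + u ^ 4 / 24 + u ^ 5 / 120 + u ^ 6 / 720
      + u ^ 7 / 5040 + u ^ 8 / 40320 + u ^ 9 / 362880 ≤ Real.exp u := by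
    have h := Real.sum_le_exp_of_nonneg hu 10
    have e : ∑ i ∈ Finset.range 10, u ^ i / (i.factorial : ℝ)
        = 1 + u + u ^ 2 / 2 + u ^ 3 / 6 + u ^ 4 / 24 + u ^ 5 / 120 + u ^ 6 / 720
          + u ^ 7 / 5040 + u ^ 8 / 40320 + u ^ 9 / 362880 := by
      simp only [Finset.sum_range_succ, Finset.sum_range_zero, Nat.factorial]
      norm_num
    rw [e] at h
    exact h
  have hpos : 0 < 1 + u + u ^ 2 / 2 + u ^ 3 / 6 + u ^ 4 / 24 + u ^ 5 / 120 + u ^ 6 / 720
      + u ^ 7 / 5040 + u ^ 8 / 40320 + u ^ 9 / 362880 := by positivity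
  have h2 : 1 ≤ (1 - u + u ^ 2 / 2 - u ^ 3 / 6 + u ^ 4 / 24 - u ^ 5 / 120 + u ^ 6 / 720
      - u ^ 7 / 5040 + u ^ 8 / 40320)
      * (1 + u + u ^ 2 / 2 + u ^ 3 / 6 + u ^ 4 / 24 + u ^ 5 / 120 + u ^ 6 / 720
      + u ^ 7 / 5040 + u ^ 8 / 40320 + u ^ 9 / 362880) := by
    have e : (1 - u + u ^ 2 / 2 - u ^ 3 / 6 + u ^ 4 / 24 - u ^ 5 / 120 + u ^ 6 / 720
        - u ^ 7 / 5040 + u ^ 8 / 40320)
        * (1 + u + u ^ 2 / 2 + u ^ 3 / 6 + u ^ 4 / 24 + u ^ 5 / 120 + u ^ 6 / 720
        + u ^ 7 / 5040 + u ^ 8 / 40320 + u ^ 9 / 362880)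
        = 1 + (u ^ 9 / 362880 + u ^ 10 / 453600 + u ^ 11 / 725760 + u ^ 12 / 4354560
          + u ^ 13 / 8709120 + u ^ 14 / 152409600 + u ^ 15 / 261273600
          + u ^ 16 / 14631321600 + u ^ 17 / 14631321600) := by ring
    rw [e]
    have : 0 ≤ u ^ 9 / 362880 + u ^ 10 / 453600 + u ^ 11 / 725760 + u ^ 12 / 4354560
          + u ^ 13 / 8709120 + u ^ 14 / 152409600 + u ^ 15 / 261273600
          + u ^ 16 / 14631321600 + u ^ 17 / 14631321600 := by
      positivity
    linarith
  calc Real.exp (-u) = (Real.exp u)⁻¹ := Real.exp_neg u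
    _ ≤ (1 + u + u ^ 2 / 2 + u ^ 3 / 6 + u ^ 4 / 24 + u ^ 5 / 120 + u ^ 6 / 720
      + u ^ 7 / 5040 + u ^ 8 / 40320 + u ^ 9 / 362880)⁻¹ := inv_anti₀ hpos hS
    _ ≤ 1 - u + u ^ 2 / 2 - u ^ 3 / 6 + u ^ 4 / 24 - u ^ 5 / 120 + u ^ 6 / 720
      - u ^ 7 / 5040 + u ^ 8 / 40320 := by
        rw [inv_le_iff_one_le_mul₀ hpos]
        exact h2

/-- A rational upper bound for the normalising constant of the density. -/
theorem inv_sqrt_two_pi_le : 1 / Real.sqrt (2 * π) ≤ 39895 / 100000 := by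
  rw [div_le_iff₀ sqrt_two_pi_pos]
  have h1 : (100000 / 39895 : ℝ) ≤ Real.sqrt (2 * π) := by
    apply Real.le_sqrt_of_sq_le
    have := Real.pi_gt_d4
    norm_num at this ⊢
    linarith
  linarith

theorem phi_le_const_mul (t : ℝ) : phi t ≤ 39895 / 100000 * Real.exp (-(t ^ 2) / 2) := by
  have h := mul_le_mul_of_nonneg_left inv_sqrt_two_pi_le (Real.exp_pos (-(t ^ 2) / 2)).le
  unfold phi
  rw [div_eq_mul_one_div]
  linarith

/-- The density is below a polynomial of degree eight. -/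
theorem phi_le_poly (s : ℝ) : phi s
    ≤ 39895 / 100000 * (1 - s ^ 2 / 2 + s ^ 4 / 8 - s ^ 6 / 48 + s ^ 8 / 384) := by
  have h1 := phi_le_const_mul s
  have h2 := exp_neg_le_four (u := s ^ 2 / 2) (by positivity)
  have e : -(s ^ 2) / 2 = -(s ^ 2 / 2) := by ring
  rw [e] at h1
  have e2 : 1 - s ^ 2 / 2 + (s ^ 2 / 2) ^ 2 / 2 - (s ^ 2 / 2) ^ 3 / 6 + (s ^ 2 / 2) ^ 4 / 24
      = 1 - s ^ 2 / 2 + s ^ 4 / 8 - s ^ 6 / 48 + s ^ 8 / 384 := by ring
  rw [e2] at h2
  linarith

/-- The tail is above a polynomial of degree nine on the nonnegative half line. -/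
theorem Q_ge_poly {t : ℝ} (ht : 0 ≤ t) :
    1 / 2 - 39895 / 100000 * (t - t ^ 3 / 6 + t ^ 5 / 40 - t ^ 7 / 336 + t ^ 9 / 3456)
      ≤ Q t := by
  have h1 := Q_zero_sub t
  rw [Q_zero] at h1
  have hderiv : ∀ x ∈ uIcc 0 t, HasDerivAt
      (fun s : ℝ => (39895 / 100000 : ℝ)
        * (s - s ^ 3 / 6 + s ^ 5 / 40 - s ^ 7 / 336 + s ^ 9 / 3456))
      (39895 / 100000 * (1 - x ^ 2 / 2 + x ^ 4 / 8 - x ^ 6 / 48 + x ^ 8 / 384)) x := by
    intro x _
    have h := (((((hasDerivAt_id x).sub ((hasDerivAt_pow 3 x).div_const 6)).add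
      ((hasDerivAt_pow 5 x).div_const 40)).sub ((hasDerivAt_pow 7 x).div_const 336)).add
      ((hasDerivAt_pow 9 x).div_const 3456)).const_mul (39895 / 100000 : ℝ)
    refine h.congr_deriv ?_
    norm_num
    ring
  have hcont : Continuous (fun x : ℝ => (39895 / 100000 : ℝ)
      * (1 - x ^ 2 / 2 + x ^ 4 / 8 - x ^ 6 / 48 + x ^ 8 / 384)) := by fun_prop
  have h2 := intervalIntegral.integral_eq_sub_of_hasDerivAt hderiv (hcont.intervalIntegrable 0 t)
  have h3 : ∫ x in (0 : ℝ)..t, phi x ≤ ∫ x in (0 : ℝ)..t, (39895 / 100000 : ℝ)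
      * (1 - x ^ 2 / 2 + x ^ 4 / 8 - x ^ 6 / 48 + x ^ 8 / 384) :=
    intervalIntegral.integral_mono_on ht (continuous_phi.intervalIntegrable 0 t)
      (hcont.intervalIntegrable 0 t) (fun x _ => phi_le_poly x)
  rw [h2] at h3
  norm_num at h3
  linarith

theorem phi_sq_eq (t : ℝ) : phi t ^ 2 = Real.exp (-(t ^ 2)) / (2 * π) := by
  unfold phi
  rw [div_pow, Real.sq_sqrt (by positivity), sq, ← Real.exp_add]
  congr 2
  ring

/-- The squared density is below a polynomial of degree sixteen. -/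
theorem phi_sq_le_poly (t : ℝ) : phi t ^ 2
    ≤ 1000 / 6283 * (1 - (t ^ 2) + (t ^ 2) ^ 2 / 2 - (t ^ 2) ^ 3 / 6 + (t ^ 2) ^ 4 / 24
      - (t ^ 2) ^ 5 / 120 + (t ^ 2) ^ 6 / 720 - (t ^ 2) ^ 7 / 5040 + (t ^ 2) ^ 8 / 40320) := by
  rw [phi_sq_eq]
  have h2 := exp_neg_le_eight (u := t ^ 2) (by positivity)
  have hpi : (6283 / 1000 : ℝ) ≤ 2 * π := by
    have := Real.pi_gt_d4
    norm_num at this ⊢
    linarith
  have h3 : Real.exp (-(t ^ 2)) / (2 * π) ≤ Real.exp (-(t ^ 2)) / (6283 / 1000) :=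
    div_le_div_of_nonneg_left (Real.exp_pos _).le (by norm_num) hpi
  have h4 : Real.exp (-(t ^ 2)) / (6283 / 1000) = 1000 / 6283 * Real.exp (-(t ^ 2)) := by ring
  rw [h4] at h3
  linarith

/-- Far from the origin the comparison follows from the Mills bound. -/
theorem phi_sq_le_of_far {T c e : ℝ} (hT : 1 ≤ T) (hc : 0 ≤ c)
    (he : Real.exp (-(T ^ 2) / 2) ≤ e) (hce : 39895 / 100000 * e * (T ^ 2 + 1) ≤ c * T) :
    ∀ t, T ≤ t → phi t ^ 2 ≤ c * Q t := by
  intro t ht
  have htpos : 0 < t := by linarith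
  have hm := mills t
  have hk := phi_le_const_mul t
  have h1 : Real.exp (-(t ^ 2) / 2) * (1 + (t ^ 2 - T ^ 2) / 2) ≤ Real.exp (-(T ^ 2) / 2) := by
    have h := Real.add_one_le_exp ((t ^ 2 - T ^ 2) / 2)
    have e1 : Real.exp (-(T ^ 2) / 2)
        = Real.exp (-(t ^ 2) / 2) * Real.exp ((t ^ 2 - T ^ 2) / 2) := by
      rw [← Real.exp_add]
      congr 1
      ring
    rw [e1]
    exact mul_le_mul_of_nonneg_left (by linarith) (Real.exp_pos _).le
  have hXpos : 0 < Real.exp (-(t ^ 2) / 2) := Real.exp_pos _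
  have hw0 : 0 ≤ (t ^ 2 - T ^ 2) / 2 := by nlinarith
  have hepos : 0 < e := lt_of_lt_of_le (Real.exp_pos _) he
  have h2 : Real.exp (-(t ^ 2) / 2) * (1 + (t ^ 2 - T ^ 2) / 2) ≤ e := le_trans h1 he
  have h3 : (39895 / 100000 : ℝ) * e * 2 ≤ c * T := by
    have hKe : 0 < (39895 / 100000 : ℝ) * e := by positivity
    have hT2 : (0 : ℝ) ≤ T ^ 2 - 1 := by nlinarith
    have := mul_nonneg hKe.le hT2
    linarith
  have h4 : (39895 / 100000 : ℝ) * Real.exp (-(t ^ 2) / 2) * (t ^ 2 + 1)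
      * (1 + (t ^ 2 - T ^ 2) / 2) ≤ c * t * (1 + (t ^ 2 - T ^ 2) / 2) := by
    have a1 := mul_le_mul_of_nonneg_left h2
      (by positivity : (0 : ℝ) ≤ 39895 / 100000 * (t ^ 2 + 1))
    have a3 := mul_le_mul_of_nonneg_right h3 hw0
    have a4 : c * T * (1 + (t ^ 2 - T ^ 2) / 2) ≤ c * t * (1 + (t ^ 2 - T ^ 2) / 2) := by
      have : c * T ≤ c * t := mul_le_mul_of_nonneg_left ht hc
      exact mul_le_mul_of_nonneg_right this (by linarith)
    nlinarith
  have h5 : (39895 / 100000 : ℝ) * Real.exp (-(t ^ 2) / 2) * (t ^ 2 + 1) ≤ c * t :=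
    le_of_mul_le_mul_right h4 (by linarith)
  have key : phi t * (t ^ 2 + 1) ≤ c * t :=
    le_trans (mul_le_mul_of_nonneg_right hk (by positivity)) h5
  have h6 : phi t ≤ c * t / (t ^ 2 + 1) := by
    rw [le_div_iff₀ (by positivity)]
    exact key
  calc phi t ^ 2 = phi t * phi t := sq _
    _ ≤ (c * t / (t ^ 2 + 1)) * phi t := mul_le_mul_of_nonneg_right h6 (phi_pos t).le
    _ = c * (phi t * t / (t ^ 2 + 1)) := by ring
    _ ≤ c * Q t := mul_le_mul_of_nonneg_left hm hc

theorem cert_univ_one_aux (x y : ℝ) (hx : 0 ≤ x) (hy : 0 ≤ y) :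
    0 ≤ (117193603515625 / 721233461448) * x ^ 0 * y ^ 16
      + (25987081373046875 / 11539735383168) * x ^ 1 * y ^ 15
      + (55712750615234375 / 3846578461056) * x ^ 2 * y ^ 14
      + (1323175076075078125 / 23079470766336) * x ^ 3 * y ^ 13
      + (3604158983780703125 / 23079470766336) * x ^ 4 * y ^ 12
      + (9539992237238063125 / 30772627688448) * x ^ 5 * y ^ 11
      + (42778730016327333125 / 92317883065344) * x ^ 6 * y ^ 10
      + (686563003207026930125 / 1292450362914816) * x ^ 7 * y ^ 9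
      + (67684145955519717625 / 143605595879424) * x ^ 8 * y ^ 8
      + (3353417471016770439815 / 10339602903318528) * x ^ 9 * y ^ 7
      + (254674587207245615815 / 1477086129045504) * x ^ 10 * y ^ 6
      + (34541457933552029815 / 492362043015168) * x ^ 11 * y ^ 5
      + (31807020323186257075 / 1477086129045504) * x ^ 12 * y ^ 4
      + (7218317257855961075 / 1477086129045504) * x ^ 13 * y ^ 3
      + (391513741705409815 / 492362043015168) * x ^ 14 * y ^ 2
      + (127889502933150815 / 1477086129045504) * x ^ 15 * y ^ 1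
      + (51313463739136015 / 10339602903318528) * x ^ 16 * y ^ 0 := by
  positivity

theorem cert_univ_one (t : ℝ) (h1 : 0 ≤ t) (h2 : t ≤ 3 / 5) :
    1000 / 6283 * (1 - (t ^ 2) + (t ^ 2) ^ 2 / 2 - (t ^ 2) ^ 3 / 6 + (t ^ 2) ^ 4 / 24 - (t ^ 2) ^ 5 / 120 + (t ^ 2) ^ 6 / 720 - (t ^ 2) ^ 7 / 5040 + (t ^ 2) ^ 8 / 40320)
      ≤ 41 / 100 * (1 / 2 - 39895 / 100000 * (t - t ^ 3 / 6 + t ^ 5 / 40 - t ^ 7 / 336 + t ^ 9 / 3456)) := by
  have h := cert_univ_one_aux (t - 0) (3 / 5 - t) (by linarith) (by linarith)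
  linear_combination h

theorem cert_univ_two_aux (x y : ℝ) (hx : 0 ≤ x) (hy : 0 ≤ y) :
    0 ≤ (51313463739136015 / 10339602903318528) * x ^ 0 * y ^ 16
      + (82978257680032975 / 1148844767035392) * x ^ 1 * y ^ 15
      + (666161728293024685 / 1148844767035392) * x ^ 2 * y ^ 14
      + (4795862606522170685 / 1477086129045504) * x ^ 3 * y ^ 13
      + (6536665346458547635 / 492362043015168) * x ^ 4 * y ^ 12
      + (6601519658474279635 / 164120681005056) * x ^ 5 * y ^ 11
      + (135230991661597123345 / 1477086129045504) * x ^ 6 * y ^ 10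
      + (546722981374330172515 / 3446534301106176) * x ^ 7 * y ^ 9
      + (40458812217790773265 / 191474127839232) * x ^ 8 * y ^ 8
      + (40146869364968989655 / 184635766130688) * x ^ 9 * y ^ 7
      + (73794840772976555 / 427397606784) * x ^ 10 * y ^ 6
      + (1076217533071994665 / 10257542562816) * x ^ 11 * y ^ 5
      + (2212248557728437145 / 46158941532672) * x ^ 12 * y ^ 4
      + (122610947463681985 / 7693156922112) * x ^ 13 * y ^ 3
      + (2336242259553865 / 641096410176) * x ^ 14 * y ^ 2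
      + (41397967425360065 / 80778147682176) * x ^ 15 * y ^ 1
      + (450017406651985 / 13463024613696) * x ^ 16 * y ^ 0 := by
  positivity

theorem cert_univ_two (t : ℝ) (h1 : 3 / 5 ≤ t) (h2 : t ≤ 6 / 5) :
    1000 / 6283 * (1 - (t ^ 2) + (t ^ 2) ^ 2 / 2 - (t ^ 2) ^ 3 / 6 + (t ^ 2) ^ 4 / 24 - (t ^ 2) ^ 5 / 120 + (t ^ 2) ^ 6 / 720 - (t ^ 2) ^ 7 / 5040 + (t ^ 2) ^ 8 / 40320)
      ≤ 41 / 100 * (1 / 2 - 39895 / 100000 * (t - t ^ 3 / 6 + t ^ 5 / 40 - t ^ 7 / 336 + t ^ 9 / 3456)) := by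
  have h := cert_univ_two_aux (t - 3 / 5) (6 / 5 - t) (by linarith) (by linarith)
  linear_combination h

theorem cert_sharp_aux (x y : ℝ) (hx : 0 ≤ x) (hy : 0 ≤ y) :
    0 ≤ (1770518059460248708662858821092250196516758815870919275 / 1225371050719531718667024134811716560747088860176) * x ^ 0 * y ^ 16
      + (5277049565566502711513713731220083249620510525615350750 / 76585690669970732416689008425732285046693053761) * x ^ 1 * y ^ 15
      + (21730215877994058744285861909878123504310905168203618750 / 25528563556656910805563002808577428348897684587) * x ^ 2 * y ^ 14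
      + (60046575594450126521724702567452762588552097855893375000 / 10940812952852961773812715489390326435241864823) * x ^ 3 * y ^ 13
      + (247373541351696605967121919031657360149843384232632187500 / 10940812952852961773812715489390326435241864823) * x ^ 4 * y ^ 12
      + (238262588700933937559634149164026846775853614354847500000 / 3646937650950987257937571829796775478413954941) * x ^ 5 * y ^ 11
      + (19796513120639269055119621272836267498479625108262500000 / 142088479907181321737827473888186057600543699) * x ^ 6 * y ^ 10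
      + (17298022062305589288855425667718274034061874828057500000000 / 76585690669970732416689008425732285046693053761) * x ^ 7 * y ^ 9
      + (141660522188698858113146872132189034177580985482812500000 / 500560069738370800109078486442694673507797737) * x ^ 8 * y ^ 8
      + (1922206378982043094955965186992796260544379642375000000000 / 6962335515451884765153546220521116822426641251) * x ^ 9 * y ^ 7
      + (2293108188888655230722120645645976608762647749625000000000 / 10940812952852961773812715489390326435241864823) * x ^ 10 * y ^ 6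
      + (447712147371102349373179700917918045001853152500000000000 / 3646937650950987257937571829796775478413954941) * x ^ 11 * y ^ 5
      + (595943763310210381172600125635902030618631968750000000000 / 10940812952852961773812715489390326435241864823) * x ^ 12 * y ^ 4
      + (193854327774764320906593641305778866284503750000000000000 / 10940812952852961773812715489390326435241864823) * x ^ 13 * y ^ 3
      + (9256528276843288222840068512988097573681250000000000000 / 2320778505150628255051182073507038940808880417) * x ^ 14 * y ^ 2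
      + (42543897874216336505948006419996655426800000000000000000 / 76585690669970732416689008425732285046693053761) * x ^ 15 * y ^ 1
      + (2763299747155237675859882281335222093296875000000000000 / 76585690669970732416689008425732285046693053761) * x ^ 16 * y ^ 0 := by
  positivity

theorem cert_sharp (t : ℝ) (h1 : 1067 / 1000 ≤ t) (h2 : t ≤ 131 / 100) :
    1000 / 6283 * (1 - (t ^ 2) + (t ^ 2) ^ 2 / 2 - (t ^ 2) ^ 3 / 6 + (t ^ 2) ^ 4 / 24 - (t ^ 2) ^ 5 / 120 + (t ^ 2) ^ 6 / 720 - (t ^ 2) ^ 7 / 5040 + (t ^ 2) ^ 8 / 40320)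
      ≤ 1875 / 5236 * (1 / 2 - 39895 / 100000 * (t - t ^ 3 / 6 + t ^ 5 / 40 - t ^ 7 / 336 + t ^ 9 / 3456)) := by
  have h := cert_sharp_aux (t - 1067 / 1000) (131 / 100 - t) (by linarith) (by linarith)
  linear_combination h

/-- On the nonnegative half line the squared density is at most `41/100` times the tail. -/
theorem phi_sq_le_univ (t : ℝ) (ht : 0 ≤ t) : phi t ^ 2 ≤ 41 / 100 * Q t := by
  rcases le_total t (6 / 5) with h | h
  · have hq := Q_ge_poly ht
    have hp := phi_sq_le_poly t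
    have hq2 := mul_le_mul_of_nonneg_left hq (by norm_num : (0 : ℝ) ≤ 41 / 100)
    rcases le_total t (3 / 5) with h' | h'
    · have hc := cert_univ_one t ht h'
      linarith
    · have hc := cert_univ_two t h' h
      linarith
  · refine phi_sq_le_of_far (T := 6 / 5) (e := 190699 / 390625) (by norm_num) (by norm_num)
      ?_ (by norm_num) t h
    have h4 := exp_neg_le_four (u := 18 / 25) (by norm_num)
    have e : -((6 / 5 : ℝ) ^ 2) / 2 = -(18 / 25) := by norm_num
    rw [e]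
    norm_num at h4 ⊢
    linarith

/-- A rational lower bound for the sharp constant. -/
theorem sharp_const_le : (5625 / 15708 : ℝ) ≤ 9 / (8 * π) := by
  rw [le_div_iff₀ (by positivity)]
  have := Real.pi_lt_d4
  norm_num at this ⊢
  linarith

/-- Beyond the point `1067/1000` the squared density is at most `9/(8π)` times the tail. -/
theorem phi_sq_le_sharp (t : ℝ) (ht : 1067 / 1000 ≤ t) : phi t ^ 2 ≤ 9 / (8 * π) * Q t := by
  have hmain : phi t ^ 2 ≤ 5625 / 15708 * Q t := by
    rcases le_total t (131 / 100) with h | h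
    · have hq := Q_ge_poly (by linarith : (0 : ℝ) ≤ t)
      have hp := phi_sq_le_poly t
      have hq2 := mul_le_mul_of_nonneg_left hq (by norm_num : (0 : ℝ) ≤ 5625 / 15708)
      have hc := cert_sharp t ht h
      linarith
    · refine phi_sq_le_of_far (T := 131 / 100)
        (e := 1641104772726526241 / 3840000000000000000) (by norm_num) (by norm_num)
        ?_ (by norm_num) t h
      have h4 := exp_neg_le_four (u := 17161 / 20000) (by norm_num)
      have e : -((131 / 100 : ℝ) ^ 2) / 2 = -(17161 / 20000) := by norm_num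
      rw [e]
      norm_num at h4 ⊢
      linarith
  exact le_trans hmain (mul_le_mul_of_nonneg_right sharp_const_le (Q_nonneg t))

/-- The tail at `1067/1000` is at least one seventh. -/
theorem one_seventh_le_Q : (1 / 7 : ℝ) ≤ Q (1067 / 1000) := by
  have h := Q_ge_poly (t := 1067 / 1000) (by norm_num)
  norm_num at h
  linarith

end Vale.Agent.Lib.Helper9.P226
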