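import Mathlib

/-!
One dimensional facts about the standard normal law: density, upper tail, the mean of a
truncated linear function, and lower bounds for the tail.
-/

namespace Vale.Agent.Lib.Helper9.P226

open MeasureTheory ProbabilityTheory Real Set Filter Topology

/-- The standard normal density. -/
noncomputable def phi (t : ℝ) : ℝ := Real.exp (-(t ^ 2) / 2) / Real.sqrt (2 * π)

/-- The upper tail of the standard normal law. -/
noncomputable def Q (t : ℝ) : ℝ := (gaussianReal 0 1).real (Set.Ioi t)

theorem sqrt_two_pi_pos : 0 < Real.sqrt (2 * π) := Real.sqrt_pos.2 (by positivity)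

theorem phi_pos (t : ℝ) : 0 < phi t := div_pos (Real.exp_pos _) sqrt_two_pi_pos

theorem pdf_eq_phi (x : ℝ) : gaussianPDFReal 0 1 x = phi x := by
  unfold gaussianPDFReal phi
  simp only [NNReal.coe_one, mul_one, sub_zero]
  ring

theorem hasDerivAt_phi (x : ℝ) : HasDerivAt phi (-(x * phi x)) x := by
  unfold phi
  have h1 : HasDerivAt (fun y : ℝ => -(y ^ 2) / 2) (-x) x :=
    (((hasDerivAt_pow 2 x).neg).div_const 2).congr_deriv (by norm_num; ring)
  exact ((h1.exp).div_const (Real.sqrt (2 * π))).congr_deriv (by ring)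

theorem continuous_phi : Continuous phi := by
  unfold phi
  fun_prop

theorem integrable_phi : Integrable phi := by
  have h := integrable_exp_neg_mul_sq (b := 1 / 2) (by norm_num)
  have h2 := h.div_const (Real.sqrt (2 * π))
  refine h2.congr (Filter.Eventually.of_forall fun x => ?_)
  unfold phi
  beta_reduce
  congr 2
  ring

theorem integrable_mul_phi : Integrable (fun x : ℝ => x * phi x) := by
  have h := integrable_mul_exp_neg_mul_sq (b := 1 / 2) (by norm_num)
  have h2 := h.div_const (Real.sqrt (2 * π))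
  refine h2.congr (Filter.Eventually.of_forall fun x => ?_)
  have e : -(1 / 2 : ℝ) * x ^ 2 = -(x ^ 2) / 2 := by ring
  show x * Real.exp (-(1 / 2 : ℝ) * x ^ 2) / Real.sqrt (2 * π) = x * phi x
  rw [e]
  unfold phi
  ring

theorem tendsto_phi_atTop : Tendsto phi atTop (𝓝 0) := by
  have h1 : Tendsto (fun x : ℝ => -(x ^ 2) / 2) atTop atBot := by
    have h0 : Tendsto (fun x : ℝ => x ^ 2 / 2) atTop atTop :=
      (tendsto_pow_atTop (n := 2) (by norm_num)).atTop_div_const (by norm_num)
    have := tendsto_neg_atTop_atBot.comp h0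
    refine this.congr fun x => ?_
    simp only [Function.comp]
    ring
  have h2 := (Real.tendsto_exp_atBot.comp h1).div_const (Real.sqrt (2 * π))
  rw [zero_div] at h2
  exact h2

theorem Q_eq_integral (t : ℝ) : Q t = ∫ x in Ioi t, phi x := by
  unfold Q
  rw [measureReal_def, gaussianReal_apply_eq_integral 0 one_ne_zero (Ioi t)]
  rw [ENNReal.toReal_ofReal]
  · exact setIntegral_congr_fun measurableSet_Ioi fun x _ => pdf_eq_phi x
  · exact setIntegral_nonneg measurableSet_Ioi fun x _ => gaussianPDFReal_nonneg 0 1 x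

theorem integral_Ioi_mul_phi (t : ℝ) : ∫ x in Ioi t, x * phi x = phi t := by
  have hd : ∀ x ∈ Ici t, HasDerivAt (fun x => -phi x) (x * phi x) x := by
    intro x _
    have h := (hasDerivAt_phi x).neg
    rw [neg_neg] at h
    exact h
  have hl : Tendsto (fun x => -phi x) atTop (𝓝 0) := by
    have h := tendsto_phi_atTop.neg
    rw [neg_zero] at h
    exact h
  have h := integral_Ioi_of_hasDerivAt_of_tendsto' hd integrable_mul_phi.integrableOn hl
  rw [h]
  ring

/-- The mean of the positive part of a shifted standard normal variable. -/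
theorem integral_max_sub (t : ℝ) :
    ∫ s, max (s - t) 0 ∂(gaussianReal 0 1) = phi t - t * Q t := by
  rw [integral_gaussianReal_eq_integral_smul one_ne_zero]
  have h1 : ∀ x : ℝ, gaussianPDFReal 0 1 x • max (x - t) 0
      = (Ioi t).indicator (fun x => x * phi x - t * phi x) x := by
    intro x
    rw [pdf_eq_phi, smul_eq_mul]
    by_cases hx : x ∈ Ioi t
    · have hx' : t < x := hx
      rw [indicator_of_mem hx, max_eq_left (by linarith)]
      ring
    · have hx' : x ≤ t := not_lt.1 hx
      rw [indicator_of_notMem hx, max_eq_right (by linarith), mul_zero]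
  simp_rw [h1]
  rw [integral_indicator measurableSet_Ioi,
    integral_sub integrable_mul_phi.integrableOn (integrable_phi.const_mul t).integrableOn,
    integral_Ioi_mul_phi, integral_const_mul, ← Q_eq_integral]

theorem Q_nonneg (t : ℝ) : 0 ≤ Q t := measureReal_nonneg

theorem Q_le_one (t : ℝ) : Q t ≤ 1 := measureReal_le_one

theorem Q_antitone : Antitone Q := fun _ _ h => measureReal_mono (Ioi_subset_Ioi h)

/-- The truncated mean is nonnegative. -/
theorem mul_Q_le_phi (t : ℝ) : t * Q t ≤ phi t := by
  have h := integral_max_sub t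
  have h2 : 0 ≤ ∫ s, max (s - t) 0 ∂(gaussianReal 0 1) :=
    integral_nonneg fun s => le_max_right _ _
  linarith

theorem integrable_max_sub (t : ℝ) :
    Integrable (fun s : ℝ => max (s - t) 0) (gaussianReal 0 1) := by
  have h1 : Integrable (fun s : ℝ => s - t) (gaussianReal 0 1) := by
    have := (memLp_id_gaussianReal (μ := 0) (v := 1) 1).integrable le_rfl
    exact (this.sub (integrable_const t))
  have h2 : Integrable (fun _ : ℝ => (0 : ℝ)) (gaussianReal 0 1) := integrable_const 0
  exact h1.sup h2

/-- A second lower bound for the truncated mean. -/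
theorem neg_le_phi_sub (t : ℝ) : -t ≤ phi t - t * Q t := by
  rw [← integral_max_sub t]
  have h1 : Integrable (fun s : ℝ => s - t) (gaussianReal 0 1) := by
    have := (memLp_id_gaussianReal (μ := 0) (v := 1) 1).integrable le_rfl
    exact (this.sub (integrable_const t))
  have h3 : ∫ s, (s - t) ∂(gaussianReal 0 1) = -t := by
    have := (memLp_id_gaussianReal (μ := 0) (v := 1) 1).integrable le_rfl
    rw [integral_sub (f := fun s : ℝ => s) (g := fun _ => t) (μ := gaussianReal 0 1) this
      (integrable_const t)]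
    have e : ∫ s, id s ∂(gaussianReal 0 1) = 0 := integral_id_gaussianReal
    simp only [id] at e
    rw [e]
    simp
  rw [← h3]
  exact integral_mono h1 (integrable_max_sub t) fun s => le_max_left _ _

theorem Q_zero : Q 0 = 1 / 2 := by
  rw [Q_eq_integral]
  have h := integral_gaussian_Ioi (1 / 2)
  have h2 : ∫ x in Ioi (0 : ℝ), phi x
      = (∫ x in Ioi (0 : ℝ), Real.exp (-(1 / 2) * x ^ 2)) / Real.sqrt (2 * π) := by
    rw [← integral_div]
    refine setIntegral_congr_fun measurableSet_Ioi fun x _ => ?_
    have e : -(1 / 2 : ℝ) * x ^ 2 = -(x ^ 2) / 2 := by ring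
    show phi x = Real.exp (-(1 / 2 : ℝ) * x ^ 2) / Real.sqrt (2 * π)
    rw [e]
    rfl
  rw [h2, h]
  have e : π / (1 / 2) = 2 * π := by ring
  rw [e]
  have := sqrt_two_pi_pos
  field_simp

theorem Q_zero_sub (t : ℝ) : Q 0 - Q t = ∫ x in (0 : ℝ)..t, phi x := by
  rw [Q_eq_integral, Q_eq_integral]
  exact intervalIntegral.integral_Ioi_sub_Ioi' integrable_phi.integrableOn
    integrable_phi.integrableOn

theorem continuous_Q : Continuous Q := by
  have h : Q = fun t => Q 0 - ∫ x in (0 : ℝ)..t, phi x := by
    funext t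
    rw [← Q_zero_sub]
    ring
  rw [h]
  exact continuous_const.sub
    (intervalIntegral.continuous_primitive (fun a b => continuous_phi.intervalIntegrable a b) 0)

theorem phi_le_one (t : ℝ) : phi t ≤ 1 := by
  unfold phi
  rw [div_le_one sqrt_two_pi_pos]
  have h1 : Real.exp (-(t ^ 2) / 2) ≤ 1 := by
    rw [Real.exp_le_one_iff]
    nlinarith [sq_nonneg t]
  have h2 : (1 : ℝ) ≤ Real.sqrt (2 * π) := by
    rw [Real.one_le_sqrt]
    nlinarith [Real.pi_gt_three]
  linarith

/-- Every value in the range from zero to the tail at `T` is attained further out. -/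
theorem exists_Q_eq {T p : ℝ} (hp : 0 < p) (hpT : p ≤ Q T) : ∃ t, T ≤ t ∧ Q t = p := by
  set B : ℝ := max T (1 / p) with hB
  have hB1 : T ≤ B := le_max_left _ _
  have hB2 : 1 / p ≤ B := le_max_right _ _
  have hBpos : 0 < B := lt_of_lt_of_le (by positivity) hB2
  have hQB : Q B ≤ p := by
    have h1 := mul_Q_le_phi B
    have h2 := phi_le_one B
    have h3 : B * Q B ≤ 1 := le_trans h1 h2
    have h4 : 1 ≤ B * p := by
      have := (div_le_iff₀ hp).1 hB2
      linarith
    have h5 : B * Q B ≤ B * p := le_trans h3 h4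
    exact le_of_mul_le_mul_left h5 hBpos
  have hivt := intermediate_value_Icc' hB1 (continuous_Q.continuousOn (s := Icc T B))
  obtain ⟨t, ht, hQt⟩ := hivt ⟨hQB, hpT⟩
  exact ⟨t, ht.1, hQt⟩

/-- A lower bound of Mills type for the tail, valid on the whole line. -/
theorem mills (t : ℝ) : phi t * t / (t ^ 2 + 1) ≤ Q t := by
  have hd : ∀ x : ℝ, HasDerivAt (fun s => -(phi s * s / (s ^ 2 + 1)))
      (phi x * (1 - 2 / (x ^ 2 + 1) ^ 2)) x := by
    intro x
    have hpos : x ^ 2 + 1 ≠ 0 := by positivity
    have h1 : HasDerivAt (fun s : ℝ => s ^ 2 + 1) (2 * x) x := by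
      have := (hasDerivAt_pow 2 x).add_const 1
      simpa using this
    have h2 := ((hasDerivAt_phi x).mul (hasDerivAt_id x)).div h1 hpos
    have h3 := h2.neg
    refine h3.congr_deriv ?_
    simp only [id, Pi.mul_apply]
    field_simp
    ring
  have hcont : Continuous (fun x : ℝ => phi x * (1 - 2 / (x ^ 2 + 1) ^ 2)) := by
    refine continuous_phi.mul (continuous_const.sub (continuous_const.div (by fun_prop) ?_))
    intro x
    positivity
  have hint : Integrable (fun x : ℝ => phi x * (1 - 2 / (x ^ 2 + 1) ^ 2)) := by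
    refine Integrable.mono' integrable_phi hcont.aestronglyMeasurable ?_
    refine Filter.Eventually.of_forall fun x => ?_
    rw [Real.norm_eq_abs, abs_mul, abs_of_pos (phi_pos x)]
    have h0 : |1 - 2 / (x ^ 2 + 1) ^ 2| ≤ 1 := by
      rw [abs_le]
      have h1 : 0 < 2 / (x ^ 2 + 1) ^ 2 := by positivity
      have h2 : 2 / (x ^ 2 + 1) ^ 2 ≤ 2 := by
        rw [div_le_iff₀ (by positivity)]
        nlinarith [sq_nonneg x, sq_nonneg (x ^ 2)]
      constructor <;> linarith
    have := mul_le_mul_of_nonneg_left h0 (phi_pos x).le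
    linarith
  have hlim : Tendsto (fun s => -(phi s * s / (s ^ 2 + 1))) atTop (𝓝 0) := by
    refine squeeze_zero_norm (fun s => ?_) tendsto_phi_atTop
    rw [norm_neg, Real.norm_eq_abs, abs_div, abs_mul, abs_of_pos (phi_pos s),
      abs_of_pos (by positivity : (0 : ℝ) < s ^ 2 + 1), div_le_iff₀ (by positivity)]
    have h0 : |s| ≤ s ^ 2 + 1 := by
      rw [abs_le]
      constructor <;> nlinarith [sq_nonneg (s - 1), sq_nonneg (s + 1)]
    exact mul_le_mul_of_nonneg_left h0 (phi_pos s).le
  have h := integral_Ioi_of_hasDerivAt_of_tendsto' (a := t) (fun x _ => hd x)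
    hint.integrableOn hlim
  have hle : ∫ x in Ioi t, phi x * (1 - 2 / (x ^ 2 + 1) ^ 2) ≤ ∫ x in Ioi t, phi x := by
    refine setIntegral_mono_on hint.integrableOn integrable_phi.integrableOn
      measurableSet_Ioi fun x _ => ?_
    have h1 : 0 < 2 / (x ^ 2 + 1) ^ 2 := by positivity
    nlinarith [phi_pos x]
  rw [Q_eq_integral]
  linarith

end Vale.Agent.Lib.Helper9.P226
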